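import Vale.Agent.P127.U.Lam.Final
import Vale.Agent.P127.H864.Main

/-!
# P127: the Kakeya maximal conjecture in `ℝ ^ 3`, and its form for families of tubes which
satisfy the Katz-Tao convex Wolff condition
-/

namespace Vale.Agent.Results.P127.ConvexWolffMaximal

open MeasureTheory Vale.Agent.P127

open scoped Classical in
/-- **The Kakeya maximal conjecture in `ℝ ^ 3`** (1), and the maximal inequality (2) and the
multiplicity inequality (3) for all families of tubes with the Katz-Tao convex Wolff condition. -/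
theorem result :
    -- (1) the Kakeya maximal conjecture in `ℝ ^ 3`
    (∀ ε : ℝ, 0 < ε → ∃ C : ℝ, ∀ δ : ℝ, 0 < δ → δ < 1 →
      ∀ f : EuclideanSpace ℝ (Fin 3) → ENNReal, Measurable f →
        ∃ G : EuclideanSpace ℝ (Fin 3) → ENNReal, Measurable G ∧
          (∀ e, ‖e‖ = 1 → kakeyaMax δ f e ≤ G e) ∧
          ∫⁻ e, G e ^ 3 ∂(surf 3) ≤ ENNReal.ofReal (C * δ ^ (-ε)) * ∫⁻ x, f x ^ 3) ∧
    (∀ ε : ℝ, 0 < ε → ∃ C : ℝ, ∀ δ Λ : ℝ, 0 < δ → δ < 1 → 1 ≤ Λ →
      ∀ (N : ℕ) (a e : Fin N → EuclideanSpace ℝ (Fin 3)), (∀ i, ‖e i‖ = 1) →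
        -- the Katz-Tao convex Wolff condition for the tubes `tube δ (a i) (e i)`
        (∀ W : Set (EuclideanSpace ℝ (Fin 3)), Convex ℝ W →
          ∑ i with tube δ (a i) (e i) ⊆ W, volume (tube δ (a i) (e i)) ≤
            ENNReal.ofReal Λ * volume W) →
        -- (2) the maximal inequality
        (∀ f : EuclideanSpace ℝ (Fin 3) → ENNReal, Measurable f →
          ∑ i, volume (tube δ (a i) (e i)) *
              ((∫⁻ x in tube δ (a i) (e i), f x) / volume (tube δ (a i) (e i))) ^ 3 ≤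
            ENNReal.ofReal (C * δ ^ (-ε) * Λ ^ (1 + ε)) * ∫⁻ x, f x ^ 3) ∧
        -- (3) the multiplicity inequality
        ∫⁻ x, (∑ i, (tube δ (a i) (e i)).indicator (fun _ => (1 : ENNReal)) x) ^ (3 / 2 : ℝ) ≤
          ENNReal.ofReal (C * δ ^ (-ε) * Λ ^ (1 / 2 + ε)) *
            ∑ i, volume (tube δ (a i) (e i))) := by
  refine ⟨U.Final.kmax2, ?_⟩
  intro ε hε
  obtain ⟨C1, hC1, H1⟩ := H864.avg_ineq hε
  obtain ⟨C2, hC2, H2⟩ := H864.dual_ineq hε
  refine ⟨max C1 C2, ?_⟩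
  intro δ Λ hδ0 hδ1 hΛ N a e he hK
  have hΛ0 : 0 < Λ := by linarith
  have hK' : H864.KTW Λ δ Finset.univ a e := by
    intro W hW
    have := hK W hW
    convert this
  refine ⟨fun f hf => ?_, ?_⟩
  · refine (H1 (Fin N) Finset.univ a e δ Λ hδ0 hδ1 hΛ (fun i _ => he i) hK' f hf).trans ?_
    refine mul_le_mul_left (ENNReal.ofReal_le_ofReal ?_) _
    exact mul_le_mul_of_nonneg_right (mul_le_mul_of_nonneg_right (le_max_left _ _)
      (by positivity)) (by positivity)
  · refine (H2 (Fin N) Finset.univ a e δ Λ hδ0 hδ1 hΛ (fun i _ => he i) hK').trans ?_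
    refine mul_le_mul_left (ENNReal.ofReal_le_ofReal ?_) _
    exact mul_le_mul_of_nonneg_right (mul_le_mul_of_nonneg_right (le_max_right _ _)
      (by positivity)) (by positivity)

end Vale.Agent.Results.P127.ConvexWolffMaximal
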