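import Vale.Agent.P127.U.Lam.Final

/-!
# P127: the Kakeya maximal conjecture in `ℝ ^ 3`
-/

namespace Vale.Agent.Results.P127.KakeyaMaximalR3

open MeasureTheory Vale.Agent.P127

/-- **The Kakeya maximal conjecture in `ℝ ^ 3`.** -/
theorem result :
    ∀ ε : ℝ, 0 < ε → ∃ C : ℝ, ∀ δ : ℝ, 0 < δ → δ < 1 →
      ∀ f : EuclideanSpace ℝ (Fin 3) → ENNReal, Measurable f →
        ∃ G : EuclideanSpace ℝ (Fin 3) → ENNReal, Measurable G ∧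
          (∀ e, ‖e‖ = 1 → kakeyaMax δ f e ≤ G e) ∧
          ∫⁻ e, G e ^ 3 ∂(surf 3) ≤ ENNReal.ofReal (C * δ ^ (-ε)) * ∫⁻ x, f x ^ 3 :=
  U.Final.kmax2

end Vale.Agent.Results.P127.KakeyaMaximalR3
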